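import Vale.Agent.P263B96.Ev
import Vale.Agent.P263B96.Wh
import Vale.Agent.P263B87.Susp
import Vale.Agent.P263B90.Row
import Vale.Agent.P263B49.Row
import Vale.Agent.P263B94.Row
import Vale.Agent.P263B15.Two

/-!
# P263: a map to a loop space factors through the loop space of the suspension

If the reduced integral homology of `A` vanishes below the degree `d`, the loop space of the
suspension of `A` is `(d - 1)`-connected, and maps from `A` to loop spaces extend to it, over
compact subsets.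
-/

open Topology Set OnePoint

namespace Vale.Agent.N263

open Vale.Agent.P246.T Vale.Agent.P246.T.FM Vale.Agent.P263.AD.Freu Vale.Agent.P263B15
open Vale.Agent.P263.T0.Ball (rho rho_coe rho_infty rho_nonneg continuous_rho)

section Whisker

open Vale.Agent.P263B96

variable {K Z : Type} [TopologicalSpace K] [TopologicalSpace Z]

open Classical in
/-- a map, continued along the whisker by a path -/
noncomputable def wF (k₀ : K) (f : C(K, Z)) {z₀ : Z} (γ : Path (f k₀) z₀) (p : W k₀) : Z :=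
  if rho p.1.1 = 1 then f (retF k₀ p) else γ (cl (1 - rho p.1.1))

theorem continuous_wF [T1Space Z] (k₀ : K) (f : C(K, Z)) {z₀ : Z} (γ : Path (f k₀) z₀) :
    Continuous (wF k₀ f γ) := by
  have hr : Continuous fun p : W k₀ => rho p.1.1 := continuous_rho.comp Su.continuous_fst
  have hf : Continuous fun p : W k₀ => f (retF k₀ p) := f.continuous.comp (continuous_retF k₀)
  have c1 : IsClosed {p : W k₀ | rho p.1.1 = 1} := isClosed_eq hr continuous_const
  have c2 : IsClosed {p : W k₀ | f (retF k₀ p) = f k₀} := isClosed_singleton.preimage hf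
  have hu : {p : W k₀ | rho p.1.1 = 1} ∪ {p : W k₀ | f (retF k₀ p) = f k₀} = univ := by
    refine eq_univ_of_forall fun p => ?_
    rcases (rho_le p.1.1).eq_or_lt with h | h
    · exact Or.inl h
    · exact Or.inr (congrArg f (retF_of_lt k₀ h))
  rw [← continuousOn_univ, ← hu]
  refine ContinuousOn.union_of_isClosed ?_ ?_ c1 c2
  · exact hf.continuousOn.congr fun p hp => if_pos hp
  · have hc : Continuous fun p : W k₀ => γ (cl (1 - rho p.1.1)) :=
      γ.continuous.comp (continuous_cl.comp (continuous_const.sub hr))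
    refine hc.continuousOn.congr fun p hp => ?_
    by_cases h : rho p.1.1 = 1
    · refine (if_pos h).trans (Eq.trans hp ?_)
      show f k₀ = γ (cl (1 - rho p.1.1))
      rw [h, sub_self, cl_of_nonpos le_rfl, γ.source]
    · exact if_neg h

theorem wF_inf (k₀ : K) (f : C(K, Z)) {z₀ : Z} (γ : Path (f k₀) z₀) :
    wF k₀ f γ (Su.inf _ k₀) = z₀ := by
  have h : rho (Su.inf (ContinuousLinearMap.id ℝ ℝ) k₀).1.1 = 0 := rfl
  rw [wF, h, if_neg zero_ne_one, sub_zero, cl_of_one_le le_rfl, γ.target]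

theorem wF_inc (k₀ : K) (f : C(K, Z)) {z₀ : Z} (γ : Path (f k₀) z₀) (k : K) :
    wF k₀ f γ (inc k₀ k) = f k := by
  have h : rho (inc k₀ k).1.1 = 1 := by
    show rho (((0 : ℝ) : OnePoint ℝ)) = 1
    rw [rho_coe]
    simp
  rw [wF, if_pos h]
  rfl

end Whisker

section Loop

variable {P Y : Type} [TopologicalSpace P] [TopologicalSpace Y] {y₀ : Y}

/-- a family of loops -/
def mkL (f : P × I → Y) (hf : Continuous f) (h0 : ∀ p, f (p, 0) = y₀) (h1 : ∀ p, f (p, 1) = y₀) :
    C(P, Lp y₀) :=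
  ⟨fun p => ⟨mkP f hf h0 p, h1 p⟩, Continuous.subtype_mk (mkP f hf h0).continuous _⟩

theorem continuous_lp {f : P → Lp y₀} {g : P → I} (hf : Continuous f) (hg : Continuous g) :
    Continuous fun p => (f p).1.1 (g p) :=
  continuous_pp (continuous_subtype_val.comp hf) hg

/-- the loop space of a space which is simply connected and has no homology up to the degree `d`
is `(d - 1)`-connected -/
theorem lft_loop {B : Type} [TopologicalSpace B] [SimplyConnectedSpace B] (b : B) {d : ℕ}
    (h : ∀ i < d + 1, RZ B i) : ∀ k < d, LftS ({kL b} : Set (Lp b)) k := by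
  intro k hk
  rcases Nat.lt_or_ge d 2 with h2 | h2
  · obtain rfl : k = 0 := by omega
    have := Vale.Agent.P263B49.pc_loop b
    exact RH.lft0 (singleton_nonempty _)
  · obtain ⟨n, rfl⟩ : ∃ n, d = n + 2 := ⟨d - 2, by omega⟩
    have := Vale.Agent.P263B94.loopsc B b inferInstance (h 2 (by omega))
    exact Vale.Agent.P263B49.lftS_pt (kL b) (n := n)
      (Vale.Agent.P263B49.rz_loop b fun i hi => h i (by omega)) k (by omega)

theorem tc_zero : Vale.Agent.P263B96.tc 0 = 0 := cl_of_nonpos (by norm_num)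

theorem tc_one : Vale.Agent.P263B96.tc 1 = 1 := cl_of_one_le (by norm_num)

/-! ### the loop space of the suspension -/

section Susp

open Vale.Agent.P263B96 (tm tc tc_eq)

variable {A : Type} [TopologicalSpace A] (a₀ : A)

/-- the suspension -/
abbrev SA : Type := Su ((ContinuousLinearMap.id ℝ ℝ).comp (ContinuousLinearMap.fst ℝ ℝ ℝ)) a₀

/-- the coordinate in `A` -/
def co (p : SA a₀) : A := Option.getD p.1.2 a₀

theorem continuousAt_co {p : SA a₀} (hp : p.1.1 ≠ ∞) : ContinuousAt (co a₀) p := by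
  refine Ext.isOpenEmbedding_of.isInducing.continuousAt_iff.2
    (Su.continuous_snd.continuousAt.congr ?_)
  filter_upwards [(isOpen_compl_singleton.preimage Su.continuous_fst).mem_nhds hp] with y hy
  rcases Su.cases y with rfl | ⟨e, k, he, rfl⟩
  · exact absurd rfl hy
  · rfl

theorem continuousAt_tm {p : SA a₀} (hp : p.1.1 ≠ ∞) :
    ContinuousAt (fun p : SA a₀ => tm p.1.1) p := by
  refine ContinuousAt.comp (g := tm) (f := fun p : SA a₀ => p.1.1) ?_
    Su.continuous_fst.continuousAt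
  obtain ⟨v, hv⟩ := OnePoint.ne_infty_iff_exists.1 hp
  rw [← hv, OnePoint.continuousAt_coe]
  exact (continuous_cl.comp (by fun_prop : Continuous fun v : ℝ × ℝ =>
    (v.2 + 1) / 2)).continuousAt

/-- the adjoint of a function to a loop space -/
noncomputable def adF (G : A → Lp y₀) (p : SA a₀) : Y := (G (co a₀ p)).1.1 (tm p.1.1)

theorem adF_of_le {G : A → Lp y₀} (hG : G a₀ = kL y₀) {p : SA a₀} (h : rho p.1.1 ≤ 1 / 2) :
    adF a₀ G p = y₀ := by
  rcases Su.cases p with rfl | ⟨e, k, he, rfl⟩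
  · exact (G _).1.2
  · change (G k).1.1 (cl ((e.2 + 1) / 2)) = y₀
    rcases he.2 with j | rfl
    · have j : e.1 = 0 := j
      have h' : (1 + ‖e‖)⁻¹ ≤ 1 / 2 := h
      rw [Prod.norm_def, j, norm_zero, max_eq_right (norm_nonneg _), one_div,
        inv_le_inv₀ (by positivity) two_pos, Real.norm_eq_abs] at h'
      rcases abs_cases e.2 with a | a
      · rw [cl_of_one_le (by linarith)]
        exact (G k).2
      · rw [cl_of_nonpos (by linarith)]
        exact (G k).1.2
    · rw [hG]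
      rfl

/-- a compact family of loops in the suspension sees only a compact subset of `A` -/
theorem exists_compact {C : Set (Lp (Su.inf _ a₀ : SA a₀))} (hC : IsCompact C) :
    ∃ K : Set A, IsCompact K ∧ ∀ (Y : Type) [TopologicalSpace Y] (y₀ : Y) (G : A → Lp y₀),
      G a₀ = kL y₀ → ContinuousOn G K →
        Continuous fun q : C × I => adF a₀ G (q.1.1.1.1 q.2) := by
  have : CompactSpace C := isCompact_iff_compactSpace.1 hC
  have hv : Continuous fun q : C × I => (q.1.1.1.1 q.2 : SA a₀) :=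
    continuous_lp (continuous_subtype_val.comp continuous_fst) continuous_snd
  have hr : Continuous fun q : C × I => rho (q.1.1.1.1 q.2 : SA a₀).1.1 :=
    continuous_rho.comp (Su.continuous_fst.comp hv)
  have c1 : IsClosed {q : C × I | rho (q.1.1.1.1 q.2 : SA a₀).1.1 ≤ 1 / 2} :=
    isClosed_le hr continuous_const
  have c2 : IsClosed {q : C × I | 1 / 2 ≤ rho (q.1.1.1.1 q.2 : SA a₀).1.1} :=
    isClosed_le continuous_const hr
  have hne : ∀ q ∈ {q : C × I | 1 / 2 ≤ rho (q.1.1.1.1 q.2 : SA a₀).1.1},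
      (q.1.1.1.1 q.2 : SA a₀).1.1 ≠ ∞ := by
    intro q hq h
    have h' : 1 / 2 ≤ rho (q.1.1.1.1 q.2 : SA a₀).1.1 := hq
    rw [h, rho_infty] at h'
    linarith
  have hco : ContinuousOn (fun q : C × I => co a₀ (q.1.1.1.1 q.2))
      {q : C × I | 1 / 2 ≤ rho (q.1.1.1.1 q.2 : SA a₀).1.1} := fun q hq =>
    (ContinuousAt.comp (f := fun q : C × I => (q.1.1.1.1 q.2 : SA a₀))
      (continuousAt_co a₀ (hne q hq)) hv.continuousAt).continuousWithinAt
  have htm : ContinuousOn (fun q : C × I => tm (q.1.1.1.1 q.2 : SA a₀).1.1)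
      {q : C × I | 1 / 2 ≤ rho (q.1.1.1.1 q.2 : SA a₀).1.1} := fun q hq =>
    (ContinuousAt.comp (f := fun q : C × I => (q.1.1.1.1 q.2 : SA a₀))
      (continuousAt_tm a₀ (hne q hq)) hv.continuousAt).continuousWithinAt
  refine ⟨_, c2.isCompact.image_of_continuousOn hco, fun Y _ y₀ G hG hc => ?_⟩
  have hu : {q : C × I | rho (q.1.1.1.1 q.2 : SA a₀).1.1 ≤ 1 / 2} ∪
      {q : C × I | 1 / 2 ≤ rho (q.1.1.1.1 q.2 : SA a₀).1.1} = univ :=
    eq_univ_of_forall fun q => le_total (rho (q.1.1.1.1 q.2 : SA a₀).1.1) (1 / 2)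
  rw [← continuousOn_univ, ← hu]
  refine ContinuousOn.union_of_isClosed ?_ ?_ c1 c2
  · exact (continuousOn_const (c := y₀)).congr fun q hq => adF_of_le a₀ hG hq
  · have c : Continuous fun q : Lp y₀ × I => q.1.1.1 q.2 :=
      continuous_lp continuous_fst continuous_snd
    exact c.comp_continuousOn ((hc.comp hco (mapsTo_image _ _)).prodMk htm)

/-- **The loop space of the suspension.** -/
theorem loop_data [PathConnectedSpace A] {d : ℕ} (hR : ∀ j < d, RZ A j) :
    ∃ (P : Type) (_ : TopologicalSpace P) (p₀ : P) (j : C(A, P)), PathConnectedSpace P ∧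
      (∀ k < d, LftS ({p₀} : Set P) k) ∧ ∀ C : Set P, IsCompact C → ∃ K : Set A, IsCompact K ∧
        ∀ (Y : Type) [TopologicalSpace Y] (y₀ : Y) (G : A → Lp y₀), G a₀ = kL y₀ →
          ContinuousOn G K → ∃ E : C(C, Lp y₀), (∀ h : p₀ ∈ C, E ⟨p₀, h⟩ = kL y₀) ∧
            ∀ (a : A) (h : j a ∈ C) (t : I), (E ⟨j a, h⟩).1.1 t = (G a).1.1 (tc t) := by
  obtain ⟨κ, σ, κ0, κ1, hκσ, hσκ⟩ := Vale.Agent.P263B96.whisk A a₀
  obtain ⟨D, hD⟩ := Vale.Agent.P263B87.susp ℝ A (ContinuousLinearMap.id ℝ ℝ) a₀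
  have pS := pc_of_retract hσκ inferInstance
  have hB := (Vale.Agent.P263B90.susph _ _ _ _ D).2.2 pS
  have rB := rz_susp Vale.Agent.P263B90.susph D fun j hj => RZ.of_retract hσκ (hR j hj)
  refine ⟨_, inferInstance, kL (Su.inf _ a₀), D.j.comp σ, Vale.Agent.P263B49.pc_loop _,
    lft_loop _ rB, fun C hC => ?_⟩
  obtain ⟨K, hK, h⟩ := exists_compact a₀ hC
  refine ⟨K, hK, fun Y _ y₀ G hG hc => ?_⟩
  have e0 : adF a₀ G (Su.inf _ a₀) = y₀ := (G _).1.2
  have key : ∀ a t, adF a₀ G ((D.j a).1.1 t) = (G (κ a)).1.1 (tc t) := by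
    intro a t
    obtain ⟨h3, h4⟩ := hD a t
    rcases Su.cases a with rfl | ⟨x, k, hx, rfl⟩
    · rw [Su.eq_inf (h3.trans rfl), e0, κ0, hG]
      rfl
    · by_cases ht : ps t = ∞
      · rw [ht, Vale.Agent.P251.G.LC.smash_infty_right] at h3
        rw [Su.eq_inf h3, e0]
        rcases ps_eq_infty ht with rfl | rfl
        · rw [tc_zero]
          exact (G _).1.2.symm
        · rw [tc_one]
          exact Eq.symm (G _).2
      · obtain ⟨τ, hτ⟩ := OnePoint.ne_infty_iff_exists.1 ht
        have h5 : ((D.j (Su.mk _ _ x k hx)).1.1 t).1.1 = ((x, τ) : ℝ × ℝ) := by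
          rw [h3, ← hτ]
          rfl
        have h6 : (D.j (Su.mk _ _ x k hx)).1.1 t = Su.mk _ a₀ (x, τ) k hx := Su.ext h5 h4
        rw [h6, κ1]
        exact congrArg (G k).1.1 (tc_eq hτ.symm)
  refine ⟨mkL _ (h Y y₀ G hG hc) (fun p => (congrArg (adF a₀ G) p.1.1.2).trans e0)
    fun p => (congrArg (adF a₀ G) p.1.2).trans e0,
    fun _ => Vale.Agent.P263B94.loop_ext fun _ => e0, fun a _ t => ?_⟩
  exact (key (σ a) t).trans (by rw [hκσ])

/-- the reparametrisation homotopy -/
noncomputable def rp (y₀ : Y) : C(I × Lp y₀, Lp y₀) :=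
  mkL (fun q : (I × Lp y₀) × I => q.1.2.1.1 (cl (q.1.1 * q.2 + (1 - q.1.1) * tc q.2)))
    (continuous_lp (continuous_snd.comp continuous_fst) (continuous_cl.comp (by
      have h : Continuous fun q : (I × Lp y₀) × I => (tc q.2 : ℝ) :=
        continuous_subtype_val.comp (tc.continuous.comp continuous_snd)
      have h' : Continuous fun q : (I × Lp y₀) × I => (q.1.1 : ℝ) := by fun_prop
      exact (h'.mul (continuous_subtype_val.comp continuous_snd)).add
        ((continuous_const.sub h').mul h))))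
    (fun p => by
      rw [tc_zero, Icc.coe_zero, mul_zero, mul_zero, add_zero, cl_of_nonpos le_rfl]
      exact p.2.1.2)
    (fun p => by
      rw [tc_one, Icc.coe_one, mul_one, mul_one, add_sub_cancel, cl_of_one_le le_rfl]
      exact p.2.2)

theorem rp_zero (l : Lp y₀) (t : I) : (rp y₀ (0, l)).1.1 t = l.1.1 (tc t) := by
  show l.1.1 (cl (((0 : I) : ℝ) * t + (1 - ((0 : I) : ℝ)) * tc t)) = _
  rw [Icc.coe_zero, zero_mul, sub_zero, one_mul, zero_add, cl_coe]

theorem rp_one (l : Lp y₀) : rp y₀ (1, l) = l := by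
  refine Vale.Agent.P263B94.loop_ext fun t => ?_
  show l.1.1 (cl (((1 : I) : ℝ) * t + (1 - ((1 : I) : ℝ)) * tc t)) = _
  rw [Icc.coe_one, one_mul, sub_self, zero_mul, add_zero, cl_coe]

end Susp

end Loop

/-! ### compact path connected carriers -/

section Good

variable {P Q : Type} [TopologicalSpace P] [TopologicalSpace Q]

/-- compact, path connected and containing the base point -/
def Good (p₀ : P) (C : Set P) : Prop := IsCompact C ∧ IsPathConnected C ∧ p₀ ∈ C

theorem Good.union {p₀ : P} {C C' : Set P} (h : Good p₀ C) (h' : Good p₀ C') : Good p₀ (C ∪ C') :=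
  ⟨h.1.union h'.1, h.2.1.union h'.2.1 ⟨p₀, h.2.2, h'.2.2⟩, Or.inl h.2.2⟩

theorem exists_good [PathConnectedSpace P] (p₀ : P) {S : Set P} (h : IsCompact S)
    (h' : IsPathConnected S) : ∃ C, Good p₀ C ∧ S ⊆ C := by
  obtain ⟨x, hx⟩ := h'.nonempty
  obtain ⟨γ⟩ := PathConnectedSpace.joined p₀ x
  exact ⟨range γ ∪ S, ⟨(isCompact_range γ.continuous).union h,
    (isPathConnected_range γ.continuous).union h' ⟨x, ⟨1, γ.target⟩, hx⟩,
    Or.inl ⟨0, γ.source⟩⟩, subset_union_right⟩

theorem exists_good_con [PathConnectedSpace P] (p₀ : P) {n : ℕ} (c : Ch n P) :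
    ∃ C, Good p₀ C ∧ c ∈ Con C n := by
  induction c using Finsupp.induction_linear with
  | zero => exact ⟨{p₀}, ⟨isCompact_singleton, isPathConnected_singleton _, rfl⟩, zero_mem _⟩
  | add a b ha hb =>
    obtain ⟨C, h1, h2⟩ := ha
    obtain ⟨C', h3, h4⟩ := hb
    exact ⟨C ∪ C', h1.union h3,
      add_mem (PR.Con_mono subset_union_left h2) (PR.Con_mono subset_union_right h4)⟩
  | single σ a =>
    have : PathConnectedSpace (Dl (n + 1)) := isPathConnected_iff_pathConnectedSpace.1
      ((convex_stdSimplex ℝ (Fin (n + 1))).isPathConnected ⟨_, (stdSimplex.vertex 0).2⟩)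
    obtain ⟨C, h1, h2⟩ := exists_good p₀ (isCompact_range σ.continuous)
      (isPathConnected_range σ.continuous)
    exact ⟨C, h1, PR.single_mem (fun x => h2 ⟨x, rfl⟩) a⟩

theorem push_Sk (f : C(P, Q)) {S : Set P} {T : Set Q} (h : ∀ x ∈ S, f x ∈ T) {n k : ℕ}
    {c : Ch k P} (hc : c ∈ Sk S n k) : push f k c ∈ Sk T n k := by
  refine LL.Sk_ind (P := fun c => push f k c ∈ Sk T n k) ?_ ?_ ?_ hc
  · rw [map_zero]
    exact zero_mem _
  · intro a b ha hb
    rw [map_add]
    exact add_mem ha hb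
  · intro a σ hσ
    rw [push_single]
    exact LL.single_mem_Sk (fun x hx => h _ (hσ x hx)) a

theorem mem_Sk_of_push {f : C(P, Q)} (hf : Function.Injective f) {T : Set Q} {n k : ℕ}
    {c : Ch k P} (hc : push f k c ∈ Sk T n k) : c ∈ Sk (f ⁻¹' T) n k := by
  rw [Sk, Finsupp.mem_supported] at hc ⊢
  intro σ hσ
  have hi : Function.Injective fun σ : C(Dl (k + 1), P) => f.comp σ := fun σ τ h =>
    ContinuousMap.ext fun x => hf (DFunLike.congr_fun h x)
  have h1 : push f k c (f.comp σ) = c σ := Finsupp.mapDomain_apply hi c σ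
  exact hc (a := f.comp σ) (Finsupp.mem_support_iff.2 (h1 ▸ Finsupp.mem_support_iff.1 hσ))

end Good

end Vale.Agent.N263
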