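import Vale.Agent.P263.E.Skel
import Vale.Agent.P263.G.Sing
import Vale.Agent.P263.TOP.LevelB

/-!
# P263: cutting a sphere-like simplicial set out of a highly connected one

If the reduced mod 2 cohomology of `X` vanishes below the degree `d`, every non-zero class of
degree `d` is detected on a simplicial subset with the mod 2 cohomology of the `d`-sphere.
-/

namespace Vale.Agent.N263

open Vale.Agent.P263.S Vale.Agent.P263.E Vale.Agent.P263.TOP Vale.Agent.P263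

theorem zmod_two (a : ZMod 2) : a = 0 ∨ a = 1 := by
  revert a
  decide

theorem factor_sg_of_eq {r q i : ℕ} (hi : i ≤ r) (θ : Op (r + 1) q)
    (h : θ ⟨i, by omega⟩ = θ ⟨i + 1, by omega⟩) : θ = (θ.comp (dl r i)).comp (sg r i) := by
  apply OrderHom.ext
  funext x
  show θ x = θ (dl r i (sg r i x))
  have hx := x.2
  rcases Nat.lt_trichotomy x.1 i with h4 | h4 | h4
  · congr 1
    apply Fin.ext
    rw [dl_val, sg_val]
    split_ifs <;> omega
  · have e1 : x = ⟨i, by omega⟩ := Fin.ext h4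
    have e2 : dl r i (sg r i x) = ⟨i + 1, by omega⟩ := by
      apply Fin.ext
      show _ = i + 1
      rw [dl_val, sg_val]
      split_ifs <;> omega
    rw [e2]
    exact (congrArg θ e1).trans h
  · congr 1
    apply Fin.ext
    rw [dl_val, sg_val]
    split_ifs <;> omega

/-- A monotone self-map is the identity or factors through a codegeneracy. -/
theorem id_or_factor {r : ℕ} (θ : Op (r + 1) (r + 1)) :
    θ = OrderHom.id ∨ ∃ i, i ≤ r ∧ θ = (θ.comp (dl r i)).comp (sg r i) := by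
  by_cases h : ∃ i : Fin (r + 1), θ i.castSucc = θ i.succ
  · obtain ⟨i, hi⟩ := h
    exact Or.inr ⟨i, by have := i.2; omega, factor_sg_of_eq (by have := i.2; omega) θ hi⟩
  · push Not at h
    have hs : StrictMono θ := Fin.strictMono_iff_lt_succ.2 fun i =>
      lt_of_le_of_ne (θ.monotone i.castSucc_lt_succ.le) (h i)
    exact Or.inl (OrderHom.ext _ _ hs.eq_id)

variable {X : SS} {m : ℕ}

/-- the degenerate simplices -/
def Deg (X : SS) (m : ℕ) : Set (X.obj (m + 1)) :=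
  {x | ∃ i, i ≤ m ∧ ∃ z : X.obj m, X.map (sg m i) z = x}

/-- the simplicial subset generated by the simplices of dimension `≤ m` and by `T` -/
def cut (X : SS) (m : ℕ) (T : Set (X.obj (m + 1))) : SS where
  obj p := {x : X.obj p // (∃ q, q ≤ m ∧ ∃ (f : Op p q) (y : X.obj q), X.map f y = x) ∨
    ∃ (f : Op p (m + 1)), ∃ y ∈ T, X.map f y = x}
  map g x := ⟨X.map g x.1, by
    rcases x.2 with ⟨q, hq, f, y, e⟩ | ⟨f, y, hy, e⟩
    · exact Or.inl ⟨q, hq, f.comp g, y, by rw [X.map_comp, e]⟩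
    · exact Or.inr ⟨f.comp g, y, hy, by rw [X.map_comp, e]⟩⟩
  map_id x := Subtype.ext (X.map_id x.1)
  map_comp f g x := Subtype.ext (X.map_comp f g x.1)

variable {T : Set (X.obj (m + 1))}

/-- the inclusion -/
def cutI (X : SS) (m : ℕ) (T : Set (X.obj (m + 1))) : SS.Map (cut X m T) X :=
  ⟨fun x => x.1, fun _ _ => rfl⟩

theorem cutI_inj : (cutI X m T).Inj := fun _ _ _ h => Subtype.ext h

/-- a simplex of low dimension -/
def low (T : Set (X.obj (m + 1))) {p : ℕ} (hp : p ≤ m) (x : X.obj p) : (cut X m T).obj p :=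
  ⟨x, Or.inl ⟨p, hp, OrderHom.id, x, X.map_id x⟩⟩

/-- a simplex of `T` -/
def ofT {x : X.obj (m + 1)} (hx : x ∈ T) : (cut X m T).obj (m + 1) :=
  ⟨x, Or.inr ⟨OrderHom.id, x, hx, X.map_id x⟩⟩

theorem exists_of_mem {x : X.obj (m + 1)} (hx : x ∈ Deg X m ∪ T) :
    ∃ y : (cut X m T).obj (m + 1), y.1 = x := by
  rcases hx with ⟨i, -, z, rfl⟩ | hx
  · exact ⟨⟨_, Or.inl ⟨m, le_rfl, _, z, rfl⟩⟩, rfl⟩
  · exact ⟨ofT hx, rfl⟩

theorem cut_top (x : (cut X m T).obj (m + 1)) : x.1 ∈ Deg X m ∪ T := by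
  rcases x.2 with ⟨q, hq, f, y, e⟩ | ⟨f, y, hy, e⟩
  · obtain ⟨i, hi, h⟩ := exists_factor_sg hq f
    exact Or.inl ⟨i, hi, X.map (f.comp (dl m i)) y, by rw [← X.map_comp, ← h, e]⟩
  · rcases id_or_factor f with rfl | ⟨i, hi, h⟩
    · rw [X.map_id] at e
      exact Or.inr (e ▸ hy)
    · exact Or.inl ⟨i, hi, X.map (f.comp (dl m i)) y, by rw [← X.map_comp, ← h, e]⟩

theorem dim_cut : SS.Dim (m + 1) (cut X m T) := by
  intro p _ x
  rcases x.2 with ⟨q, hq, f, y, e⟩ | ⟨f, y, hy, e⟩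
  · exact ⟨q, by omega, f, low T hq y, Subtype.ext e⟩
  · exact ⟨m + 1, le_rfl, f, ofT hy, Subtype.ext e⟩

theorem cutI_bij {p : ℕ} (hp : p ≤ m) :
    Function.Bijective (((cutI X m T).pull (R := ZMod 2)).app p) := by
  refine ⟨fun a b h => ?_, cutI_inj.pull_surjective p⟩
  funext x
  exact congrFun h (low T hp x)

/-! ### the choice of a basis -/

/-- the boundary of a simplex -/
noncomputable def bv (x : X.obj (m + 1)) : X.obj m →₀ ZMod 2 :=
  ∑ i ∈ Finset.range (m + 2), Finsupp.single (X.map (dl m i) x) 1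

theorem lc_bv (u : (SS.F (ZMod 2) X).obj m) (x : X.obj (m + 1)) :
    Finsupp.linearCombination (ZMod 2) (show X.obj m → ZMod 2 from u) (bv x) =
      (SS.F (ZMod 2) X).d m u x := by
  rw [SS.F_d, bv, map_sum]
  refine Finset.sum_congr rfl fun i _ => ?_
  rw [Finsupp.linearCombination_single, one_smul, G.sn_two]

theorem exists_basis (X : SS) (m : ℕ) : ∃ T : Set (X.obj (m + 1)),
    (∀ u : (SS.F (ZMod 2) X).obj m, (∀ x ∈ Deg X m ∪ T, (SS.F (ZMod 2) X).d m u x = 0) →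
      (SS.F (ZMod 2) X).d m u = 0) ∧
    ∀ φ : X.obj (m + 1) → ZMod 2, ∃ u : (SS.F (ZMod 2) X).obj m,
      (∀ x ∈ Deg X m, (SS.F (ZMod 2) X).d m u x = 0) ∧
        ∀ x ∈ T, (SS.F (ZMod 2) X).d m u x = φ x := by
  let W : Submodule (ZMod 2) (X.obj m →₀ ZMod 2) := Submodule.span _ (bv '' Deg X m)
  let w : X.obj (m + 1) → (X.obj m →₀ ZMod 2) ⧸ W := fun x => W.mkQ (bv x)
  obtain ⟨T, -, -, hsp, hli⟩ := exists_linearIndepOn_extension (K := ZMod 2) (v := w)
    (s := ∅) (t := Set.univ) (linearIndepOn_empty _ _) (Set.empty_subset _)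
  refine ⟨T, fun u hu => ?_, fun φ => ?_⟩
  · let l := Finsupp.linearCombination (ZMod 2) (show X.obj m → ZMod 2 from u)
    have hW : W ≤ LinearMap.ker l := by
      rw [Submodule.span_le]
      rintro _ ⟨x, hx, rfl⟩
      exact (lc_bv u x).trans (hu x (Or.inl hx))
    have hT : Submodule.span (ZMod 2) (w '' T) ≤ LinearMap.ker (W.liftQ l hW) := by
      rw [Submodule.span_le]
      rintro _ ⟨x, hx, rfl⟩
      exact (lc_bv u x).trans (hu x (Or.inr hx))
    funext x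
    exact (lc_bv u x).symm.trans (hT (hsp ⟨x, Set.mem_univ _, rfl⟩))
  · have hli' : LinearIndependent (ZMod 2) fun x : T => w x := hli
    obtain ⟨g, hg⟩ := LinearMap.exists_extend
      ((Finsupp.linearCombination (ZMod 2) fun x : T => φ x).comp hli'.repr)
    have e : ∀ x, (SS.F (ZMod 2) X).d m (fun y => g (W.mkQ (Finsupp.single y 1))) x = g (w x) := by
      intro x
      refine (lc_bv (X := X) (fun y => g (W.mkQ (Finsupp.single y 1))) x).symm.trans ?_
      have : Finsupp.linearCombination (ZMod 2) (fun y => g (W.mkQ (Finsupp.single y 1))) =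
          g.comp W.mkQ := by
        refine Finsupp.lhom_ext' fun y => LinearMap.ext_ring ?_
        simp
      exact LinearMap.congr_fun this _
    refine ⟨fun y => g (W.mkQ (Finsupp.single y 1)), fun x hx => (e x).trans ?_,
      fun x hx => (e x).trans ?_⟩
    · have : w x = 0 := (Submodule.Quotient.mk_eq_zero _).2 (Submodule.subset_span ⟨x, hx, rfl⟩)
      rw [this, map_zero]
    · have h1 := LinearMap.congr_fun hg ⟨w x, Submodule.subset_span ⟨⟨x, hx⟩, rfl⟩⟩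
      refine h1.trans ?_
      rw [LinearMap.comp_apply, hli'.repr_eq_single ⟨x, hx⟩ _ rfl,
        Finsupp.linearCombination_single, one_smul]

/-! ### the sphere-like subset -/

section Sphere

variable {T₀ : Set (X.obj (m + 1))}
  (h1 : ∀ u : (SS.F (ZMod 2) X).obj m, (∀ x ∈ Deg X m ∪ T₀, (SS.F (ZMod 2) X).d m u x = 0) →
    (SS.F (ZMod 2) X).d m u = 0)
  (h2 : ∀ φ : X.obj (m + 1) → ZMod 2, ∃ u : (SS.F (ZMod 2) X).obj m,
    (∀ x ∈ Deg X m, (SS.F (ZMod 2) X).d m u x = 0) ∧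
      ∀ x ∈ T₀, (SS.F (ZMod 2) X).d m u x = φ x)

theorem d_pull {p : ℕ} (u : (SS.F (ZMod 2) X).obj p) (x : (cut X m T).obj (p + 1)) :
    (SS.F (ZMod 2) (cut X m T)).d p (((cutI X m T).pull (R := ZMod 2)).app p u) x =
      (SS.F (ZMod 2) X).d p u x.1 :=
  (congrFun (((cutI X m T).pull (R := ZMod 2)).app_d p u) x).symm

include h1 in
/-- cocycles of low degree extend -/
theorem exists_Z (hT : T₀ ⊆ T) {p : ℕ} (hp : p ≤ m) {y : (SS.F (ZMod 2) (cut X m T)).obj p}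
    (hy : y ∈ (SS.F (ZMod 2) (cut X m T)).Z p) :
    ∃ x ∈ (SS.F (ZMod 2) X).Z p, ((cutI X m T).pull (R := ZMod 2)).app p x = y := by
  rcases hp.lt_or_eq with h | rfl
  · exact Hom.exists_Z_of_trunc _ (fun _ hq => cutI_bij hq) h hy
  · obtain ⟨x, rfl⟩ := (cutI_bij (T := T) le_rfl).2 y
    refine ⟨x, h1 x fun z hz => ?_, rfl⟩
    obtain ⟨z', rfl⟩ := exists_of_mem (T := T) (hz.imp id fun h => hT h)
    rw [← d_pull]
    exact congrFun hy z'

include h2 in
/-- a cocycle can be changed by a coboundary so that it vanishes on `Deg ∪ T₀` -/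
theorem exists_van {S : SS} (i : SS.Map S X) (hi : i.Inj)
    (hs : ∀ z : X.obj m, ∃ z', i.app z' = z) {c : (SS.F (ZMod 2) S).obj (m + 1)}
    (hc : c ∈ (SS.F (ZMod 2) S).Z (m + 1)) :
    ∃ c' : (SS.F (ZMod 2) S).obj (m + 1), c - c' ∈ (SS.F (ZMod 2) S).Bd (m + 1) ∧
      ∀ x : S.obj (m + 1), i.app x ∈ Deg X m ∪ T₀ → c' x = 0 := by
  obtain ⟨c₁, -, hb, hn⟩ := (SS.F (ZMod 2) S).exists_norm hc
  obtain ⟨φ, hφ⟩ := hi.pull_surjective (R := ZMod 2) (m + 1) c₁
  obtain ⟨u, hu1, hu2⟩ := h2 φ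
  have e : ∀ x : S.obj (m + 1), (SS.F (ZMod 2) S).d m ((i.pull (R := ZMod 2)).app m u) x =
      (SS.F (ZMod 2) X).d m u (i.app x) := fun x =>
    (congrFun ((i.pull (R := ZMod 2)).app_d m u) x).symm
  refine ⟨c₁ - (SS.F (ZMod 2) S).d m ((i.pull (R := ZMod 2)).app m u), ?_, fun x hx => ?_⟩
  · rw [← sub_add]
    exact Submodule.add_mem _ hb ((SS.F (ZMod 2) S).d_mem_Bd _)
  · show c₁ x - (SS.F (ZMod 2) S).d m ((i.pull (R := ZMod 2)).app m u) x = 0
    rw [e]
    rcases hx with hx | hx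
    · rw [hu1 _ hx, sub_zero]
      obtain ⟨k, hk, z, hz⟩ := hx
      obtain ⟨z', rfl⟩ := hs z
      obtain rfl : S.map (sg m k) z' = x := hi _ ((i.nat _ _).trans hz)
      exact congrFun (hn k hk) z'
    · rw [hu2 _ hx, ← hφ]
      exact sub_self _

include h2 in
theorem two_classes (σ : X.obj (m + 1)) (a b : Co (cut X m (insert σ T₀)) (m + 1)) (ha : a ≠ 0)
    (hb : b ≠ 0) : a = b := by
  have key : ∀ a : Co (cut X m (insert σ T₀)) (m + 1), a ≠ 0 →
      ∃ z : (SS.F (ZMod 2) (cut X m (insert σ T₀))).Z (m + 1),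
        (SS.F (ZMod 2) (cut X m (insert σ T₀))).cls (m + 1) z = a ∧
        (∀ x, x.1 ∈ Deg X m ∪ T₀ → z.1 x = 0) ∧ ∀ x, x.1 ∉ Deg X m ∪ T₀ → z.1 x = 1 := by
    intro a ha
    obtain ⟨z, rfl⟩ := (SS.F (ZMod 2) (cut X m (insert σ T₀))).cls_surjective (m + 1) a
    obtain ⟨c', hb, hv⟩ := exists_van h2 (cutI X m (insert σ T₀)) cutI_inj
      (fun y => ⟨low _ le_rfl y, rfl⟩) z.2
    have hz : c' ∈ (SS.F (ZMod 2) (cut X m (insert σ T₀))).Z (m + 1) := by
      have := Submodule.sub_mem _ z.2 ((SS.F (ZMod 2) (cut X m (insert σ T₀))).Bd_le_Z _ hb)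
      rwa [sub_sub_cancel] at this
    have e := (CosMod.cls_eq_iff (x := z) (y := ⟨c', hz⟩)).2 hb
    refine ⟨⟨c', hz⟩, e.symm, hv, fun x hx => ?_⟩
    have hσ : ∀ y : (cut X m (insert σ T₀)).obj (m + 1), y.1 ∉ Deg X m ∪ T₀ → y.1 = σ := by
      intro y hy
      rcases cut_top y with h | h | h
      · exact absurd (Or.inl h) hy
      · exact h
      · exact absurd (Or.inr h) hy
    rcases zmod_two (c' x) with h | h
    · exfalso
      apply ha
      rw [e]
      have : c' = 0 := by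
        funext y
        by_cases hy : y.1 ∈ Deg X m ∪ T₀
        · exact hv y hy
        · obtain rfl : y = x := Subtype.ext ((hσ y hy).trans (hσ x hx).symm)
          exact h
      rw [CosMod.cls_eq_zero_iff]
      show c' ∈ _
      rw [this]
      exact Submodule.zero_mem _
    · exact h
  obtain ⟨z, rfl, h3, h4⟩ := key a ha
  obtain ⟨z', rfl, h5, h6⟩ := key b hb
  congr 1
  refine Subtype.ext (funext fun x => ?_)
  by_cases hx : x.1 ∈ Deg X m ∪ T₀
  · exact (h3 x hx).trans (h5 x hx).symm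
  · exact (h4 x hx).trans (h6 x hx).symm

include h1 h2 in
theorem exists_detect {c : Co X (m + 1)} (hc : c ≠ 0) : ∃ σ : X.obj (m + 1),
    ((cutI X m (insert σ T₀)).pull (R := ZMod 2)).mapH (m + 1) c ≠ 0 := by
  by_contra hcon
  push Not at hcon
  obtain ⟨z, rfl⟩ := (SS.F (ZMod 2) X).cls_surjective (m + 1) c
  obtain ⟨c', hb, hv⟩ := exists_van h2 (SS.Map.id X) (fun _ _ _ h => h) (fun y => ⟨y, rfl⟩) z.2
  apply hc
  rw [CosMod.cls_eq_zero_iff]
  have : c' = 0 := by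
    funext σ
    have h3 := hcon σ
    rw [Hom.mapH_cls, CosMod.cls_eq_zero_iff] at h3
    have h4 := Submodule.sub_mem _ h3
      (((cutI X m (insert σ T₀)).pull (R := ZMod 2)).app_mem_Bd hb)
    rw [Hom.coe_mapZ, ← map_sub, sub_sub_cancel] at h4
    obtain ⟨w, hw⟩ := h4
    obtain ⟨u, rfl⟩ := (cutI_bij (T := insert σ T₀) le_rfl).2 w
    have h5 : ∀ x : (cut X m (insert σ T₀)).obj (m + 1), (SS.F (ZMod 2) X).d m u x.1 = c' x.1 :=
      fun x => (d_pull u x).symm.trans (congrFun hw x)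
    have h6 := h1 u fun x hx => by
      obtain ⟨x', rfl⟩ := exists_of_mem (T := insert σ T₀) (hx.imp id fun h => Or.inr h)
      exact (h5 x').trans (hv _ hx)
    exact (h5 (ofT (Set.mem_insert σ T₀))).symm.trans (congrFun h6 σ)
  rw [this, sub_zero] at hb
  exact hb

end Sphere

theorem equiv_of_two {V : Type} [AddCommGroup V] [Module (ZMod 2) V] {v : V} (hv : v ≠ 0)
    (h : ∀ a b : V, a ≠ 0 → b ≠ 0 → a = b) : Nonempty (V ≃ₗ[ZMod 2] ZMod 2) := by
  refine ⟨(LinearEquiv.ofBijective (LinearMap.toSpanSingleton (ZMod 2) V v) ⟨?_, fun a => ?_⟩).symm⟩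
  · rw [injective_iff_map_eq_zero]
    intro r hr
    rcases zmod_two r with rfl | rfl
    · rfl
    · exact absurd ((one_smul _ v).symm.trans hr) hv
  · by_cases ha : a = 0
    · exact ⟨0, by rw [map_zero, ha]⟩
    · exact ⟨1, (one_smul _ v).trans (h v a hv ha)⟩

/-- **Cutting out a sphere-like simplicial subset.** -/
theorem exists_cut (X : SS) {d : ℕ} (hd : 0 < d) (hne : ∀ p, Nonempty (X.obj p))
    (h0 : ∀ f ∈ (SS.F (ZMod 2) X).Z 0, ∀ x y : X.obj 0, f x = f y)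
    (hl : ∀ j, 0 < j → j < d → ∀ x : Co X j, x = 0) {c : Co X d} (hc : c ≠ 0) :
    ∃ (S : SS) (i : SS.Map S X), SphLike (ZMod 2) S d ∧ Nonempty (Co S d ≃ₗ[ZMod 2] ZMod 2) ∧
      (i.pull (R := ZMod 2)).mapH d c ≠ 0 := by
  obtain ⟨m, rfl⟩ : ∃ m, d = m + 1 := ⟨d - 1, by omega⟩
  obtain ⟨T₀, h1, h2⟩ := exists_basis X m
  obtain ⟨σ, hσ⟩ := exists_detect h1 h2 hc
  have hT : T₀ ⊆ insert σ T₀ := Set.subset_insert _ _
  refine ⟨cut X m (insert σ T₀), cutI X m _, ⟨hd, fun p => ?_, fun f hf x y => ?_,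
    fun j hj hjd x => ?_, fun x => ?_⟩, equiv_of_two hσ (two_classes h2 σ), hσ⟩
  · obtain ⟨x⟩ := hne 0
    exact ⟨(cut X m _).map (OrderHom.const _ 0) (low _ (Nat.zero_le m) x)⟩
  · obtain ⟨u, hu, rfl⟩ := exists_Z h1 hT (Nat.zero_le m) hf
    exact h0 u hu _ _
  · obtain ⟨z, rfl⟩ := (SS.F (ZMod 2) (cut X m (insert σ T₀))).cls_surjective j x
    obtain ⟨u, hu, e⟩ := exists_Z h1 hT (by omega : j ≤ m) z.2
    rw [CosMod.cls_eq_zero_iff, ← e]
    exact Hom.app_mem_Bd _ ((CosMod.cls_eq_zero_iff (x := ⟨u, hu⟩)).1 (hl j hj hjd _))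
  · exact dim_cut.H_eq_zero (Hom.id _) (fun _ _ _ h => h) (Nat.lt_succ_self _) x

end Vale.Agent.N263
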