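import Mathlib.AlgebraicTopology.SingularHomology.Basic
import Mathlib.Algebra.Category.ModuleCat.Colimits
import Mathlib.Algebra.Category.ModuleCat.Abelian

/-!
# P263: integral singular homology
-/

open CategoryTheory

namespace Vale.Agent.N263

/-- Singular homology with coefficients in `ℤ`. -/
noncomputable def HZ (j : ℕ) : TopCat.{0} ⥤ ModuleCat.{0} ℤ :=
  (AlgebraicTopology.singularHomologyFunctor (ModuleCat.{0} ℤ) j).obj (ModuleCat.of ℤ ℤ)

end Vale.Agent.N263
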