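import Vale.Agent.N263.Defs
import Vale.Agent.P263.T0.SphH
import Vale.Agent.P263.AD.FreuCh
import Mathlib.Algebra.Homology.ShortComplex.ModuleCat

/-!
# P263: Mathlib's integral singular homology and singular chains
-/

open CategoryTheory Limits Simplicial

namespace Vale.Agent.N263

open Vale.Agent.P246.T Vale.Agent.P263.AD.Freu Vale.Agent.P263.T0.SphH

variable (X : Type) [TopologicalSpace X]

/-- the singular simplicial set -/
noncomputable abbrev SX : SSet.{0} := TopCat.toSSet.obj (TopCat.of X)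

/-- the coefficient object -/
abbrev RZ' : ModuleCat.{0} ℤ := ModuleCat.of ℤ ℤ

/-- Mathlib's singular chain complex -/
noncomputable abbrev KX : ChainComplex (ModuleCat.{0} ℤ) ℕ := (SX X).chainComplex RZ'

/-- from Mathlib's chains to finitely supported functions -/
noncomputable def toCh (n : ℕ) : (KX X).X n ⟶ ModuleCat.of ℤ (Ch n X) :=
  ((SX X).isColimitChainComplexXCofan RZ' n).desc
    (Cofan.mk _ fun x => ModuleCat.ofHom (Finsupp.lsingle (unS X x)))

theorem ι_toCh {n : ℕ} (x : (SX X) _⦋n⦌) :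
    (SX X).ιChainComplex x ≫ toCh X n = ModuleCat.ofHom (Finsupp.lsingle (unS X x)) :=
  ((SX X).isColimitChainComplexXCofan RZ' n).fac _ ⟨x⟩

/-- the chain of a simplex -/
noncomputable def sx {n : ℕ} (σ : C(Dl (n + 1), X)) : (KX X).X n :=
  ((SX X).ιChainComplex (R := RZ') (mkS X σ)).hom (1 : ℤ)

theorem toCh_sx {n : ℕ} (σ : C(Dl (n + 1), X)) :
    (toCh X n).hom (sx X σ) = Finsupp.single σ 1 := by
  have h := LinearMap.congr_fun (congrArg ModuleCat.Hom.hom (ι_toCh X (mkS X σ))) (1 : ℤ)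
  rw [unS_mkS] at h
  exact h

theorem d_sx {n : ℕ} (σ : C(Dl (n + 2), X)) : ((KX X).d (n + 1) n).hom (sx X σ) =
    ∑ i : Fin (n + 2), ((-1 : ℤ) ^ (i : ℕ)) • sx X (σ.comp (face (n + 1) i)) := by
  have h := LinearMap.congr_fun (congrArg ModuleCat.Hom.hom
    (SSet.ιChainComplex_d (SX X) (R := RZ') (mkS X σ))) (1 : ℤ)
  refine h.trans ?_
  rw [ModuleCat.hom_sum, LinearMap.sum_apply]
  rfl

/-- from finitely supported functions to Mathlib's chains -/
noncomputable def ofCh (n : ℕ) : Ch n X →+ (KX X).X n :=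
  Finsupp.liftAddHom fun σ => zmultiplesHom _ (sx X σ)

theorem ofCh_single {n : ℕ} (σ : C(Dl (n + 1), X)) (a : ℤ) :
    ofCh X n (Finsupp.single σ a) = a • sx X σ := by
  rw [ofCh, Finsupp.liftAddHom_apply_single]
  rfl

theorem toCh_ofCh {n : ℕ} (c : Ch n X) : (toCh X n).hom (ofCh X n c) = c := by
  induction c using Finsupp.induction_linear with
  | zero => rw [map_zero, map_zero]
  | add a b ha hb => rw [map_add, map_add, ha, hb]
  | single σ a => rw [ofCh_single, map_zsmul, toCh_sx, Finsupp.smul_single, smul_eq_mul, mul_one]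

theorem d_ofCh {n : ℕ} (c : Ch (n + 1) X) :
    ((KX X).d (n + 1) n).hom (ofCh X (n + 1) c) = ofCh X n (bd n c) := by
  induction c using Finsupp.induction_linear with
  | zero => rw [map_zero, map_zero, map_zero, map_zero]
  | add a b ha hb => rw [map_add, map_add, ha, hb, map_add, map_add]
  | single σ a =>
    rw [ofCh_single, map_zsmul, d_sx, bd_single, map_sum, ← Finset.sum_zsmul]
    refine Finset.sum_congr rfl fun i _ => ?_
    rw [ofCh_single, mul_zsmul]

theorem d_toCh (n : ℕ) : (KX X).d (n + 1) n ≫ toCh X n =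
    toCh X (n + 1) ≫ ModuleCat.ofHom (bd n) := by
  refine SSet.chainComplex_hom_ext fun x => ?_
  obtain ⟨σ, rfl⟩ : ∃ σ, mkS X σ = x := ⟨_, mkS_unS x⟩
  refine ModuleCat.hom_ext (LinearMap.ext_ring ?_)
  show (toCh X n).hom (((KX X).d (n + 1) n).hom (sx X σ)) = bd n ((toCh X (n + 1)).hom (sx X σ))
  rw [toCh_sx, ← toCh_ofCh X (bd n (Finsupp.single σ 1)), ← d_ofCh, ofCh_single, one_smul]

/-- if Mathlib's integral homology vanishes, every cycle bounds -/
theorem rz_of_subsingleton {n : ℕ} (h : Subsingleton ((HZ (n + 1)).obj (TopCat.of X))) :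
    RZ X (n + 1) := by
  intro c hc
  have h1 : IsZero ((KX X).homology (n + 1)) :=
    ModuleCat.isZero_of_subsingleton ((HZ (n + 1)).obj (TopCat.of X))
  have h2 : (KX X).ExactAt (n + 1) := (HomologicalComplex.exactAt_iff_isZero_homology _ _).2 h1
  rw [HomologicalComplex.exactAt_iff' _ (n + 2) (n + 1) n (by simp) (by simp),
    ShortComplex.moduleCat_exact_iff] at h2
  obtain ⟨y, hy⟩ := h2 (ofCh X (n + 1) c) (by
    refine (d_ofCh X c).trans ?_
    rw [show bd n c = 0 from hc]
    exact map_zero _)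
  refine ⟨(toCh X (n + 2)).hom y, ?_⟩
  have h3 := LinearMap.congr_fun (congrArg ModuleCat.Hom.hom (d_toCh X (n + 1))) y
  refine h3.symm.trans ?_
  show (toCh X (n + 1)).hom (((KX X).d (n + 2) (n + 1)).hom y) = c
  rw [show ((KX X).d (n + 2) (n + 1)).hom y = ofCh X (n + 1) c from hy, toCh_ofCh]

end Vale.Agent.N263
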