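import Vale.Agent.N263.Cut
import Vale.Agent.P263.TOP.ContractFin
import Vale.Agent.P263.TOP.G2Done
import Vale.Agent.P263.AD.FreuCh

/-!
# P263: maps from spaces whose reduced mod 2 homology vanishes below the degree `d`
-/

namespace Vale.Agent.N263

open CategoryTheory Simplicial Vale.Agent.P263.S Vale.Agent.P263.E Vale.Agent.P263.TOP
  Vale.Agent.P263 Vale.Agent.P246.T Vale.Agent.P263.AD.Freu

theorem rz_zero (A : Type) [TopologicalSpace A] [PathConnectedSpace A] : RZ A 0 :=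
  fun c hc => PR.exists_bd_zero c hc

/-- a `0`-cocycle on a path connected space is constant -/
theorem const_of_cob {A : Type} [TopologicalSpace A] [PathConnectedSpace A]
    {f : C(Dl 1, A) → ZMod 2} (hf : T0.SphH.cob f = 0) (σ τ : C(Dl 1, A)) : f σ = f τ := by
  obtain ⟨b, hb⟩ := rz_zero A (Finsupp.single σ 1 - Finsupp.single τ 1) (by
    change FM.wt 0 _ = 0
    rw [map_sub, FM.wt_single, FM.wt_single, sub_self])
  have h := T0.SphH.fl_bd_zero hf b
  rw [hb, map_sub, T0.SphH.red_single, T0.SphH.red_single, map_sub, T0.SphH.fl_single,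
    T0.SphH.fl_single, Int.cast_one, one_mul, one_mul] at h
  exact sub_eq_zero.1 h

/-- a simplicial map to the singular simplices of `Q₀S⁰` -/
theorem dims_of_ss {X : SS} {d : ℕ} (hd : 0 < d) (hne : ∀ p, Nonempty (X.obj p))
    (h0 : ∀ f ∈ (SS.F (ZMod 2) X).Z 0, ∀ x y : X.obj 0, f x = f y)
    (hl : ∀ j, 0 < j → j < d → ∀ x : Co X j, x = 0) (a : SS.Map X (G.sing T0.Q0S0))
    (ha : (a.pull (R := ZMod 2)).mapH d ≠ 0) :
    (∃ s : ℕ, d + 1 = 2 ^ s) ∨ ∃ s : ℕ, d + 2 = 2 ^ (s + 1) := by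
  obtain ⟨k, hk, Z, i, j, hi, hj⟩ := g2Stmt (d + 3)
  obtain ⟨y, hy⟩ : ∃ y, (a.pull (R := ZMod 2)).mapH d y ≠ 0 := by
    by_contra h
    push Not at h
    exact ha (LinearMap.ext h)
  obtain ⟨S, u, hS, ⟨e⟩, hu⟩ := exists_cut X hd hne h0 hl hy
  obtain ⟨z, rfl⟩ := hj.2 d (by omega) y
  have h4 : 3 ≤ 2 ^ k := by
    have : 2 ^ 2 ≤ 2 ^ k := Nat.pow_le_pow_right (by norm_num) hk
    omega
  let G' : Geo d (2 ^ k) :=
    { hN := h4
      Z := Z
      A := S
      D := d + 2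
      hD := le_rfl
      c := i
      a := (j.comp a).comp u
      hc := fun n hn => ⟨hi.1 n (by omega), hi.2 n (by omega)⟩
      hA := hS
      fund := e }
  by_contra hcon
  push Not at hcon
  have h5 := G'.phi_eq_zero_iff.1 (contract.phi_eq_zero G' (fun ⟨s, hs⟩ => hcon.1 s hs)
    fun ⟨s, hs⟩ => hcon.2 s hs) z
  apply hu
  rw [← Hom.mapH_comp, ← Hom.mapH_comp]
  exact h5

/-- **Spaces which are highly connected in mod 2 homology.** -/
theorem dims_of_mod_two {d : ℕ} (hd : 0 < d) (A : TopCat.{0}) [PathConnectedSpace A]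
    (hA : ∀ j, 0 < j → j < d → Subsingleton ((T0.H j).obj A)) (f : A ⟶ T0.Q0S0)
    (hf : (T0.H d).map f ≠ 0) : (∃ s : ℕ, d + 1 = 2 ^ s) ∨ ∃ s : ℕ, d + 2 = 2 ^ (s + 1) := by
  refine dims_of_ss (X := G.sing A) hd (fun p => ?_) (fun c hc x y => ?_) (fun j hj hjd x => ?_)
    (G.singMap f) fun h => hf ((G.H_map_eq_zero_iff_mapH d f).2 h)
  · exact ⟨T0.SphH.mkS A (ContinuousMap.const _ (Classical.arbitrary A))⟩
  · have h1 : T0.cobd (TopCat.toSSet.obj (TopCat.of A)) c = 0 :=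
      (G.d_eq_cobd (TopCat.toSSet.obj (TopCat.of A)) c).symm.trans hc
    have h2 := const_of_cob ((T0.SphH.cob_eq_zero_iff c).2 h1) (T0.SphH.unS A x)
      (T0.SphH.unS A y)
    exact (congrArg c (T0.SphH.mkS_unS x)).symm.trans (h2.trans (congrArg c (T0.SphH.mkS_unS y)))
  · obtain ⟨⟨c, hc⟩, rfl⟩ := (SS.F (ZMod 2) (G.sing A)).cls_surjective j x
    rw [CosMod.cls_eq_zero_iff]
    exact (G.isCobd_iff (TopCat.toSSet.obj A) c).1
      ((T0.homology_subsingleton_iff (TopCat.toSSet.obj A) j).1 (hA j hj hjd) c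
        ((G.d_eq_cobd (TopCat.toSSet.obj A) c).symm.trans hc))

end Vale.Agent.N263
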