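import Vale.Agent.N263.Conn
import Vale.Agent.N263.Int
import Vale.Agent.N263.Mod2
import Vale.Agent.P263.G2.LadderW
import Vale.Agent.P263.T0.Hur

/-!
# P263: maps from spaces whose reduced integral homology vanishes below the degree `d`
-/

open Topology Set OnePoint CategoryTheory Simplicial

namespace Vale.Agent.N263

open Vale.Agent.P246.T Vale.Agent.P246.T.FM Vale.Agent.P263.AD.Freu Vale.Agent.P263B15
open Vale.Agent.P263 Vale.Agent.P263.T0 Vale.Agent.P263.T0.SphH
open Vale.Agent.P178.H551 (IsSm isSm_of_card face_isSm con_bound)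

/-! ### the delooping of the stages -/

section Deloop

open Vale.Agent.P263.G2 Vale.Agent.P263.TOP Vale.Agent.P263.GB

/-- `Ωʳ Sʳ⁺¹` -/
abbrev YY (r : ℕ) : Type := TOP.BMap (Fin r → ℝ) (ℝ × (Fin r → ℝ))

/-- its base point -/
abbrev y0 (r : ℕ) : YY r := bzero (Fin r → ℝ) (ℝ × (Fin r → ℝ))

/-- `Ωʳ Sʳ → Ω (Ωʳ Sʳ⁺¹)` -/
noncomputable def lam (r : ℕ) : C(Om r, Lp (y0 r)) :=
  mkL (fun q : Om r × I => (lo (Homeomorph.refl (ℝ × (Fin r → ℝ))) q.1).1 q.2)
    (Lo.continuous_eval ((lo (Homeomorph.refl (ℝ × (Fin r → ℝ)))).continuous.comp continuous_fst)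
      continuous_snd)
    (fun q => (lo (Homeomorph.refl (ℝ × (Fin r → ℝ))) q).2.1)
    fun q => (lo (Homeomorph.refl (ℝ × (Fin r → ℝ))) q).2.2

/-- the two models of the loop space -/
def toLo {Y : Type} [TopologicalSpace Y] (y₀ : Y) : C(Lp y₀, Lo y₀) :=
  ⟨fun l => ⟨l.1.1, l.1.2, l.2⟩,
    Lo.continuous_mk _ (continuous_lp continuous_fst continuous_snd)⟩

/-- `Ω (Ωʳ Sʳ⁺¹) → Ωʳ⁺¹ Sʳ⁺¹` -/
noncomputable def mu (r : ℕ) : C(Lp (y0 r), Om (r + 1)) :=
  (ldW (Homeomorph.refl (ℝ × (Fin r → ℝ))) (snocH r) (snocH r)).comp (toLo (y0 r))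

theorem stC_eq_stab (r : ℕ) (q : Om r) : stC (snocH r) (snocH r) q = stab r q := by
  refine bext' (snocH r) fun x t => ?_
  exact (stC_coe (snocH r) (snocH r) q x t).trans
    (stabFun_toSmash q q.2 ((x : Sph r), (t : OnePoint ℝ))).symm

theorem mu_lam (r : ℕ) (q : Om r) : mu r (lam r q) = stab r q :=
  (ldW_lo (Homeomorph.refl (ℝ × (Fin r → ℝ))) (snocH r) (snocH r) q).trans (stC_eq_stab r q)

theorem lam_const (r : ℕ) : lam r (Om.const r) = kL (y0 r) :=
  Vale.Agent.P263B94.loop_ext fun _ => bcomp_zero _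

theorem mu_const (r : ℕ) : mu r (kL (y0 r)) = Om.const (r + 1) := by
  rw [← lam_const, mu_lam, toSmash_const]

end Deloop

/-- a map from a path connected space which meets the base component lands in it -/
theorem mem_comp {P : Type} [TopologicalSpace P] [PathConnectedSpace P] (E : C(P, QS0)) {p₀ : P}
    (h : E p₀ ∈ pathComponent base) (p : P) : E p ∈ pathComponent base := by
  obtain ⟨γ⟩ := PathConnectedSpace.joined p₀ p
  exact Joined.mem_pathComponent ⟨γ.map E.continuous⟩ h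

theorem t1_Q : T1Space Q0S0 := by
  have : T1Space QS0 := ⟨fun x => by
    obtain ⟨r, y, rfl⟩ := toQ_surj x
    rw [← image_singleton]
    exact (isClosedEmbedding_toQ r).isClosedMap _ isClosed_singleton⟩
  exact inferInstanceAs (T1Space (pathComponent base))

open Classical in
/-- over a compact set a based map to `Q₀S⁰` comes from a stage -/
theorem exists_stage {A : Type} [TopologicalSpace A] {a₀ : A} (f : C(A, Q0S0))
    (hf : f a₀ = base0) {K : Set A} (hK : IsCompact K) : ∃ (r : ℕ) (F : A → Om r),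
      F a₀ = Om.const r ∧ ContinuousOn F K ∧ ∀ a ∈ K, toQ r (F a) = (f a).1 := by
  have : CompactSpace K := isCompact_iff_compactSpace.1 hK
  obtain ⟨r, F, hF⟩ := exists_factor (K := K)
    ⟨fun a => (f a.1).1, continuous_subtype_val.comp (f.continuous.comp continuous_subtype_val)⟩
  refine ⟨r, fun a => if h : a ∈ K then F ⟨a, h⟩ else Om.const r, ?_, ?_, fun a ha => ?_⟩
  · by_cases h : a₀ ∈ K
    · refine (dif_pos h).trans (toQ_injective r ((hF _).trans ?_))
      exact (congrArg Subtype.val hf).trans (toQ_const r).symm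
    · exact dif_neg h
  · rw [continuousOn_iff_continuous_domRestrict]
    refine F.continuous.congr fun a => ?_
    show F a = if h : a.1 ∈ K then F ⟨a.1, h⟩ else Om.const r
    rw [dif_pos a.2]
  · exact (congrArg (toQ r) (dif_pos ha)).trans (hF _)

/-- **The image of a cycle is homologous to a chain of spherical simplices.** -/
theorem exists_sk {A : Type} [TopologicalSpace A] [PathConnectedSpace A] {n : ℕ}
    (hR : ∀ j < n + 1, RZ A j) {a₀ : A} (f : C(A, Q0S0)) (hf : f a₀ = base0) {z : Ch (n + 1) A}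
    (hz : bd n z = 0) : ∃ w ∈ Sk ({base0} : Set Q0S0) (n + 1) (n + 1),
      Hg w (push f (n + 1) z) := by
  obtain ⟨P, _, p₀, j, hP, hL, hE⟩ := loop_data a₀ hR
  obtain ⟨ρ, D, -, -, hD, -, -, hS, -⟩ := HC.main P ({p₀} : Set P) (n + 1) hL
  obtain ⟨K₀, hK₀, hzK⟩ := exists_good_con a₀ z
  obtain ⟨z₀, rfl⟩ := PR.exists_push_inc hzK
  have hz₀ : RedCyc (n + 1) z₀ := redCyc_of_push (f := PR.inc K₀) Subtype.val_injective hz
  set y := push j (n + 1) (push (PR.inc K₀) (n + 1) z₀) with hy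
  obtain ⟨C₁, g1, m1⟩ := exists_good_con p₀ (ρ (n + 1) y)
  obtain ⟨C₂, g2, m2⟩ := exists_good_con p₀ (D (n + 1) y)
  obtain ⟨C₃, g3, m3⟩ := exists_good p₀ (hK₀.1.image j.continuous) (hK₀.2.1.image j.continuous)
  obtain ⟨C, g, s1, s2, s3⟩ : ∃ C, Good p₀ C ∧ C₁ ⊆ C ∧ C₂ ⊆ C ∧ C₃ ⊆ C :=
    ⟨_, (g1.union g2).union g3, fun _ h => Or.inl (Or.inl h), fun _ h => Or.inl (Or.inr h),
      fun _ h => Or.inr h⟩
  obtain ⟨w, hw⟩ := PR.exists_push_inc (PR.Con_mono s1 m1)
  obtain ⟨b, hb⟩ := PR.exists_push_inc (PR.Con_mono s2 m2)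
  have hj : ∀ a : K₀, j a ∈ C := fun a => s3 (m3 ⟨a, a.2, rfl⟩)
  let j₀ : C(K₀, C) := ⟨fun a => ⟨j a, hj a⟩,
    (j.continuous.comp continuous_subtype_val).subtype_mk _⟩
  have h1 : Hg w (push j₀ (n + 1) z₀) := ⟨b, PR.push_inc_injective _ (by
    rw [← push_bd, hb, hD, hy, push_bd, hz, map_zero, map_zero, sub_zero, map_sub, hw, hy,
      ← push_comp, ← push_comp]
    rfl)⟩
  obtain ⟨K, hK, hE⟩ := hE C g.1
  obtain ⟨r, F, F0, Fc, hF⟩ := exists_stage f hf (hK.union hK₀.1)
  have Gc : ContinuousOn (fun a => lam r (F a)) (K ∪ K₀) := (lam r).continuous.comp_continuousOn Fc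
  obtain ⟨E, E0, E1⟩ := hE _ (y0 r) (fun a => lam r (F a)) (by rw [F0, lam_const])
    (Gc.mono subset_union_left)
  let ν : C(Lp (y0 r), QS0) := (toQ (r + 1)).hom.comp (mu r)
  have e0 : ν (E ⟨p₀, g.2.2⟩) = base := by
    rw [E0]
    exact (congrArg (toQ (r + 1)) (mu_const r)).trans (toQ_const _)
  have e1 : ∀ a : K₀, ν (lam r (F a)) = (f a).1 := fun a =>
    (congrArg (toQ (r + 1)) (mu_lam r _)).trans ((toQ_stab r _).trans (hF a (Or.inr a.2)))
  have := isPathConnected_iff_pathConnectedSpace.1 g.2.1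
  have := isPathConnected_iff_pathConnectedSpace.1 hK₀.2.1
  have n1 := mem_comp (ν.comp E) (p₀ := ⟨p₀, g.2.2⟩) (by
    rw [ContinuousMap.comp_apply, e0]
    exact mem_pathComponent_self _)
  let E' : C(C, Q0S0) := ⟨fun p => ⟨_, n1 p⟩, (ν.comp E).continuous.subtype_mk _⟩
  have Gc' : Continuous fun a : K₀ => lam r (F a) :=
    continuousOn_iff_continuous_domRestrict.1 (Gc.mono subset_union_right)
  let H : C(I × K₀, QS0) := ν.comp ((rp (y0 r)).comp
    ⟨fun q => (q.1, lam r (F q.2)), continuous_fst.prodMk (Gc'.comp continuous_snd)⟩)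
  have H1 : ∀ a : K₀, H (1, a) = (f a).1 := fun a =>
    (congrArg ν (rp_one _)).trans (e1 a)
  have n2 := mem_comp H (p₀ := (1, ⟨a₀, hK₀.2.2⟩)) (by
    rw [H1]
    exact (f a₀).2)
  have h2 : (E'.comp j₀).Homotopic (f.comp (PR.inc K₀)) :=
    homotopic_of (fun q => ⟨_, n2 q⟩) (H.continuous.subtype_mk _)
      (fun a => Subtype.ext (congrArg ν (Vale.Agent.P263B94.loop_ext fun t =>
        (rp_zero _ t).trans (E1 a (hj a) t).symm)))
      fun a => Subtype.ext (H1 a)
  refine ⟨push E' (n + 1) w, push_Sk E' (S := PR.inc C ⁻¹' {p₀}) (fun x hx => ?_)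
    (mem_Sk_of_push Subtype.val_injective (hw ▸ hS (n + 1) y)), ?_⟩
  · obtain rfl : x = ⟨p₀, g.2.2⟩ := Subtype.ext hx
    exact Subtype.ext e0
  · have h3 := hg_of_homotopic h2 hz₀
    rw [push_comp, push_comp] at h3
    exact (h1.push E').trans h3

/-! ### the Hurewicz theorem -/

section Hurewicz

variable {P X : Type} [TopologicalSpace P] [TopologicalSpace X]

theorem fl_push (f : C(P, X)) {n : ℕ} (u : C(Dl (n + 1), X) → ZMod 2) (z : Ch n P) :
    fl u (red n (push f n z)) = fl (fun σ => u (f.comp σ)) (red n z) := by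
  induction z using Finsupp.induction_linear with
  | zero => simp only [map_zero]
  | add a b ha hb => simp only [map_add, ha, hb]
  | single σ a => rw [push_single, red_single, red_single, fl_single, fl_single]

theorem fl_hg {n : ℕ} {u : C(Dl (n + 1), X) → ZMod 2} (hu : cob u = 0) {z z' : Ch n X}
    (h : Hg z z') : fl u (red n z) = fl u (red n z') := by
  obtain ⟨b, hb⟩ := h
  have h1 := fl_bd_zero hu b
  rw [hb, map_sub, map_sub] at h1
  exact sub_eq_zero.1 h1

/-- a cocycle which kills the spherical simplices kills the cycles made of them -/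
theorem fl_eq_zero_of_sk {p₀ : P} {n : ℕ} {u : C(Dl (n + 2), P) → ZMod 2} (hu : cob u = 0)
    (hs : ∀ σ, IsSm p₀ σ → u σ = u (ContinuousMap.const _ p₀)) {w : Ch (n + 1) P}
    (hw : w ∈ Sk ({p₀} : Set P) (n + 1) (n + 1)) (hz : bd n w = 0) :
    fl u (red (n + 1) w) = 0 := by
  have key : bd n w = bd n (wt (n + 1) w • ksx (n + 1) p₀) ∧
      fl u (red (n + 1) w) = fl u (red (n + 1) (wt (n + 1) w • ksx (n + 1) p₀)) := by
    refine LL.Sk_ind (P := fun c => bd n c = bd n (wt (n + 1) c • ksx (n + 1) p₀) ∧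
      fl u (red (n + 1) c) = fl u (red (n + 1) (wt (n + 1) c • ksx (n + 1) p₀))) ?_ ?_ ?_ hw
    · simp only [map_zero, zero_smul, and_self]
    · intro a b ha hb
      simp only [map_add, add_smul, ha.1, hb.1, ha.2, hb.2, and_self]
    · intro a σ hσ
      have h1 := isSm_of_card hσ
      rw [wt_single, ksx, Finsupp.smul_single, smul_eq_mul, mul_one]
      refine ⟨?_, by rw [red_single, red_single, fl_single, fl_single, hs σ h1]⟩
      rw [bd_single, bd_single]
      exact Finset.sum_congr rfl fun i _ => by rw [face_isSm h1]; rfl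
  obtain ⟨b, hb⟩ := con_bound p₀ (c := wt (n + 1) w • ksx (n + 1) p₀)
    (Submodule.smul_mem _ _ (PR.single_mem (fun _ => rfl) 1)) (by rw [← key.1, hz])
  rw [key.2, ← hb]
  exact fl_bd_zero hu b

theorem t2_sph (d : ℕ) : T2Space (Sph d) := inferInstance

/-- a simplex with boundary at the base point is a based map of the sphere -/
theorem exists_sph {n : ℕ} {x₀ : X} {σ : C(Dl (n + 2), X)} (hσ : IsSm x₀ σ) :
    ∃ g : C(Sph (n + 1), X), g ∞ = x₀ ∧ g.comp (sig (n + 1)) = σ := by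
  have hv : (stdSimplex.vertex 0 : Dl (n + 2)) ∈ bdD (n + 1) := ⟨1, by simp⟩
  have hsurj : Function.Surjective (sig (n + 1)) := by
    intro z
    induction z using OnePoint.rec with
    | infty => exact ⟨_, sig_of_mem hv⟩
    | coe u => exact ⟨sm u, sig_sm u⟩
  have := t2_sph (n + 1)
  have hq : IsQuotientMap (sig (n + 1)) :=
    (sig (n + 1)).continuous.isClosedMap.isQuotientMap (sig (n + 1)).continuous hsurj
  have hb : ∀ x ∈ bdD (n + 1), σ x = x₀ := fun x ⟨i, hi⟩ => hσ x i hi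
  have hf : Function.FactorsThrough σ (sig (n + 1)) := by
    intro x y hxy
    by_cases hx : x ∈ bdD (n + 1) <;> by_cases hy : y ∈ bdD (n + 1)
    · rw [hb x hx, hb y hy]
    · rw [sig_of_mem hx, sig_of_notMem hy] at hxy
      exact absurd hxy (OnePoint.infty_ne_coe _)
    · rw [sig_of_mem hy, sig_of_notMem hx] at hxy
      exact absurd hxy (OnePoint.coe_ne_infty _)
    · rw [sig_of_notMem hx, sig_of_notMem hy] at hxy
      rw [← sm_lg hx, ← sm_lg hy, OnePoint.coe_injective hxy]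
  refine ⟨hq.lift σ hf, ?_, hq.lift_comp σ hf⟩
  rw [← sig_of_mem hv, ← hb _ hv]
  exact DFunLike.congr_fun (hq.lift_comp σ hf) _

/-- a cocycle which kills the spherical classes kills the spherical simplices -/
theorem van_of_sph {n : ℕ} {x₀ : X} (c : (TopCat.toSSet.obj (TopCat.of X)) _⦋n + 1⦌ → ZMod 2)
    (hc : cobd (TopCat.toSSet.obj (TopCat.of X)) c = 0)
    (h : ∀ g : C(Sph (n + 1), X), g ∞ = x₀ →
      (evH _ c hc).hom (((H (n + 1)).map (TopCat.ofHom g)).hom (iota (Nat.succ_pos n))) = 0)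
    {σ : C(Dl (n + 2), X)} (hσ : IsSm x₀ σ) : fn c σ = fn c (ContinuousMap.const _ x₀) := by
  obtain ⟨g, rfl, rfl⟩ := exists_sph hσ
  have h2 := LinearMap.congr_fun (congrArg ModuleCat.Hom.hom (homologyMap_evH _
    (TopCat.toSSet.map (TopCat.ofHom g)) c hc)) (iota (Nat.succ_pos n))
  exact CharTwo.add_eq_zero.1 ((evH_iota (Nat.succ_pos n) _ _).symm.trans
    (h2.symm.trans (h g rfl)))

/-- the image of a map which sends cycles to spherical chains is spherical -/
theorem mem_of_sk {A : Type} [TopologicalSpace A] {n : ℕ} (hR : RZ A n) {x₀ : X}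
    (S : Submodule (ZMod 2) ((H (n + 1)).obj (TopCat.of X)))
    (hS : ∀ g : C(Sph (n + 1), X), g ∞ = x₀ →
      ((H (n + 1)).map (TopCat.ofHom g)).hom (iota (Nat.succ_pos n)) ∈ S)
    {f : C(A, X)} (h1 : ∀ z : Ch (n + 1) A, bd n z = 0 →
      ∃ w ∈ Sk ({x₀} : Set X) (n + 1) (n + 1), Hg w (push f (n + 1) z))
    (x : (H (n + 1)).obj (TopCat.of A)) : ((H (n + 1)).map (TopCat.ofHom f)).hom x ∈ S := by
  by_contra hx
  obtain ⟨l, hl, hk⟩ := Submodule.exists_le_ker_of_notMem hx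
  obtain ⟨c, hc, hcl⟩ := evH_surjective (TopCat.toSSet.obj (TopCat.of X)) (ModuleCat.ofHom l)
  have hu : cob (fn c) = 0 := (cob_eq_zero_iff c).2 hc
  have h4 : ∃ g, (fun σ : C(Dl (n + 2), A) => fn c (f.comp σ)) = cob g := by
    refine exists_cob (fun z hz _ _ => hR z hz) fun z hz => ?_
    obtain ⟨w, hw, h2⟩ := h1 z hz
    rw [← fl_push, ← fl_hg hu h2]
    refine fl_eq_zero_of_sk hu (fun σ hσ => van_of_sph c hc (fun g hg => ?_) hσ) hw
      (h2.redCyc (redCyc_push f (n := n + 1) hz))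
    rw [hcl]
    exact hk (hS g hg)
  have h6 : IsCobd (TopCat.toSSet.obj (TopCat.of A)) (pull (TopCat.toSSet.map (TopCat.ofHom f)) c) :=
    (isCobd_iff_exists _).2 h4
  have h7 := (evH_eq_zero_iff _ _ (pull_cocycle _ (TopCat.toSSet.map (TopCat.ofHom f)) hc)).2 h6
  rw [← homologyMap_evH _ _ c hc, hcl] at h7
  exact hl (LinearMap.congr_fun (congrArg ModuleCat.Hom.hom h7) x)

end Hurewicz

/-- **The image of a homologically `(d - 1)`-connected space is spherical.** -/
theorem mem_hurImage_of_rz {d : ℕ} (hd : 0 < d) (A : TopCat.{0}) [PathConnectedSpace A]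
    (hR : ∀ j < d, RZ A j) (f : A ⟶ Q0S0) (x : (H d).obj A) : (H d).map f x ∈ hurImage hd := by
  obtain ⟨n, rfl⟩ : ∃ n, d = n + 1 := ⟨d - 1, by omega⟩
  refine mem_of_sk (X := Q0S0) (x₀ := base0) (hR n (Nat.lt_succ_self n)) (hurImage hd)
    (fun g hg => ⟨⟨TopCat.ofHom g, hg⟩, rfl⟩) (f := f.hom) (fun z hz => ?_) x
  have := t1_Q
  let a₀ : A := Classical.arbitrary A
  obtain ⟨γ⟩ : Joined (f.hom a₀) base0 := by
    have : PathConnectedSpace Q0S0 :=
      isPathConnected_iff_pathConnectedSpace.1 (isPathConnected_pathComponent (x := base))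
    exact PathConnectedSpace.joined _ _
  have h := Vale.Agent.P263B96.inc_ret a₀
  have := pc_of_retract h inferInstance
  obtain ⟨w, hw, h1⟩ := exists_sk (fun j hj => RZ.of_retract h (hR j hj))
    ⟨wF a₀ f.hom γ, continuous_wF a₀ f.hom γ⟩ (wF_inf a₀ f.hom γ)
    (z := push (Vale.Agent.P263B96.inc a₀) (n + 1) z) (by rw [push_bd, hz, map_zero])
  have h2 : (⟨wF a₀ f.hom γ, continuous_wF a₀ f.hom γ⟩ : C(_, Q0S0)).comp
      (Vale.Agent.P263B96.inc a₀) = f.hom := ContinuousMap.ext (wF_inc a₀ f.hom γ)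
  rw [← push_comp, h2] at h1
  exact ⟨w, hw, h1⟩

theorem mem_range_hur {d : ℕ} (hd : 0 < d) (A : TopCat.{0}) [PathConnectedSpace A]
    (hA : ∀ j, 0 < j → j < d → Subsingleton ((HZ j).obj A))
    (f : A ⟶ Q0S0) (x : (H d).obj A) : ∃ g : BMap d, hur hd g = (H d).map f x := by
  refine mem_hurImage_of_rz hd A (fun j hj => ?_) f x
  cases j with
  | zero => exact rz_zero A
  | succ j => exact rz_of_subsingleton A (hA _ (Nat.succ_pos j) hj)

end Vale.Agent.N263
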